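import Vale.Agent.P227.M.SC.SK
import Vale.Agent.P227.M.SC.StepDefs

/-! # P227/M/SC: the one-dimensional inequality in raw moments, passage to the limit (helper192) -/

namespace Vale.Agent.P227.M.SC.F192

open Real MeasureTheory Filter Topology

/-- third central moment / variance in terms of raw moments -/
noncomputable def k2 (J0 J1 J2 : ℝ) : ℝ := J2 / J0 - (J1 / J0) ^ 2
noncomputable def k3 (J0 J1 J2 J3 : ℝ) : ℝ := J3 / J0 - 3 * (J1 / J0) * (J2 / J0) + 2 * (J1 / J0) ^ 3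

theorem k2_scale {N : ℝ} (hN : N ≠ 0) (J0 J1 J2 : ℝ) : k2 (N * J0) (N * J1) (N * J2) = k2 J0 J1 J2 := by
  simp only [k2, mul_div_mul_left _ _ hN]

theorem k3_scale {N : ℝ} (hN : N ≠ 0) (J0 J1 J2 J3 : ℝ) :
    k3 (N * J0) (N * J1) (N * J2) (N * J3) = k3 J0 J1 J2 J3 := by
  simp only [k3, mul_div_mul_left _ _ hN]

theorem pass_limit {κ : ℝ} {J0 J1 J2 J3 M : ℕ → ℝ} {R0 R1 R2 R3 : ℝ}
    (h0 : Tendsto J0 atTop (𝓝 R0)) (h1 : Tendsto J1 atTop (𝓝 R1))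
    (h2 : Tendsto J2 atTop (𝓝 R2)) (h3 : Tendsto J3 atTop (𝓝 R3)) (hR : R0 ≠ 0)
    (hM : Tendsto M atTop (𝓝 κ))
    (h : ∀ m, |k3 (J0 m) (J1 m) (J2 m) (J3 m)| ≤ 2 * M m * (k2 (J0 m) (J1 m) (J2 m)) ^ (3 / 2 : ℝ)) :
    |k3 R0 R1 R2 R3| ≤ 2 * κ * (k2 R0 R1 R2) ^ (3 / 2 : ℝ) := by
  have e1 : Tendsto (fun m => J1 m / J0 m) atTop (𝓝 (R1 / R0)) := h1.div h0 hR
  have e2 : Tendsto (fun m => J2 m / J0 m) atTop (𝓝 (R2 / R0)) := h2.div h0 hR
  have e3 : Tendsto (fun m => J3 m / J0 m) atTop (𝓝 (R3 / R0)) := h3.div h0 hR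
  have f3 : Tendsto (fun m => k3 (J0 m) (J1 m) (J2 m) (J3 m)) atTop (𝓝 (k3 R0 R1 R2 R3)) := by
    unfold k3
    exact (e3.sub ((tendsto_const_nhds.mul e1).mul e2)).add (tendsto_const_nhds.mul (e1.pow 3))
  have f2 : Tendsto (fun m => k2 (J0 m) (J1 m) (J2 m)) atTop (𝓝 (k2 R0 R1 R2)) := by
    unfold k2
    exact e2.sub (e1.pow 2)
  have f4 : Tendsto (fun m => (k2 (J0 m) (J1 m) (J2 m)) ^ (3 / 2 : ℝ)) atTop
      (𝓝 ((k2 R0 R1 R2) ^ (3 / 2 : ℝ))) :=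
    f2.rpow_const (Or.inr (by norm_num))
  exact le_of_tendsto_of_tendsto f3.abs ((tendsto_const_nhds.mul hM).mul f4)
    (Eventually.of_forall h)

theorem sk_raw {U U1 U2 U3 : ℝ → ℝ} (h1 : ∀ x, HasDerivAt U (U1 x) x)
    (h2 : ∀ x, HasDerivAt U1 (U2 x) x) (h3 : ∀ x, HasDerivAt U2 (U3 x) x)
    {a M : ℝ} (ha : 0 < a) (hM : 0 < M) (hU2 : ∀ x, a ≤ U2 x)
    (hsc : ∀ x, |U3 x| ≤ 2 * M * (U2 x) ^ (3 / 2 : ℝ)) :
    0 < ∫ x, exp (-U x) ∧
    |k3 (∫ x, exp (-U x)) (∫ x, x * exp (-U x)) (∫ x, x ^ 2 * exp (-U x)) (∫ x, x ^ 3 * exp (-U x))|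
      ≤ 2 * M * (k2 (∫ x, exp (-U x)) (∫ x, x * exp (-U x)) (∫ x, x ^ 2 * exp (-U x))) ^ (3 / 2 : ℝ) := by
  have hI : ∀ j : ℕ, Integrable fun x => x ^ j * exp (-U x) := fun j =>
    integrable_pow_exp h1 h2 ha hU2 j
  have I0 : Integrable fun x => exp (-U x) := by simpa using hI 0
  have I1 : Integrable fun x => x * exp (-U x) := by simpa using hI 1
  have I2 := hI 2
  have I3 := hI 3
  set Z := ∫ x, exp (-U x) with hZ
  set R1 := ∫ x, x * exp (-U x) with hR1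
  set R2 := ∫ x, x ^ 2 * exp (-U x) with hR2
  set R3 := ∫ x, x ^ 3 * exp (-U x) with hR3
  have hZ0 : 0 < Z := integral_exp_pos I0
  refine ⟨hZ0, ?_⟩
  have key := sk U U1 U2 U3 h1 h2 h3 ha hM hU2 hsc (Z := Z) (m := R1 / Z)
    (v := (∫ x, (x - R1 / Z) ^ 2 * exp (-U x)) / Z) rfl rfl rfl
  set μ := R1 / Z with hμ
  have e2 : ∫ x, (x - μ) ^ 2 * exp (-U x) = R2 - 2 * μ * R1 + μ ^ 2 * Z := by
    have : (fun x => (x - μ) ^ 2 * exp (-U x)) = fun x => (x ^ 2 * exp (-U x) -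
        (2 * μ) * (x * exp (-U x))) + μ ^ 2 * exp (-U x) := by funext x; ring
    have q1 : Integrable fun x => x ^ 2 * exp (-U x) - (2 * μ) * (x * exp (-U x)) :=
      I2.sub (I1.const_mul _)
    rw [this, integral_add q1 (I0.const_mul _),
      integral_sub I2 (I1.const_mul _), integral_const_mul, integral_const_mul]
  have e3 : ∫ x, (x - μ) ^ 3 * exp (-U x) = R3 - 3 * μ * R2 + 3 * μ ^ 2 * R1 - μ ^ 3 * Z := by
    have : (fun x => (x - μ) ^ 3 * exp (-U x)) = fun x => ((x ^ 3 * exp (-U x) -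
        (3 * μ) * (x ^ 2 * exp (-U x))) + (3 * μ ^ 2) * (x * exp (-U x))) -
        μ ^ 3 * exp (-U x) := by funext x; ring
    have q1 : Integrable fun x => x ^ 3 * exp (-U x) - (3 * μ) * (x ^ 2 * exp (-U x)) :=
      I3.sub (I2.const_mul _)
    have q2 : Integrable fun x => (x ^ 3 * exp (-U x) - (3 * μ) * (x ^ 2 * exp (-U x))) +
        (3 * μ ^ 2) * (x * exp (-U x)) := q1.add (I1.const_mul _)
    rw [this, integral_sub q2 (I0.const_mul _), integral_add q1 (I1.const_mul _),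
      integral_sub I3 (I2.const_mul _), integral_const_mul, integral_const_mul,
      integral_const_mul]
  have hRμ : R1 = μ * Z := by rw [hμ]; field_simp
  have g2 : (∫ x, (x - μ) ^ 2 * exp (-U x)) / Z = k2 Z R1 R2 := by
    rw [e2, k2, ← hμ, hRμ]
    field_simp
    ring
  have g3 : (∫ x, (x - μ) ^ 3 * exp (-U x)) / Z = k3 Z R1 R2 R3 := by
    rw [e3, k3, ← hμ, hRμ]
    field_simp
    ring
  rw [g2, g3] at key
  exact key

end Vale.Agent.P227.M.SC.F192
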