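import Vale.Agent.P227.M.SC.F192.Iter
import Vale.Agent.P227.M.SC.F192.Raw
import Vale.Agent.P227.M.SC.MomLimD
import Vale.Agent.P227.M.SC.StOfReg
import Vale.Agent.P227.M.LL.Smooth
import Vale.Agent.P227.M.Stmts

/-! # P227/M/SC: conclusion `(∀ n, StepStmt (E n)) → StmtSC` by the discrete scheme (helper192) -/

namespace Vale.Agent.P227.M.SC.F192

open Real MeasureTheory Filter Topology

section Line

variable {F : Type*} [NormedAddCommGroup F] [NormedSpace ℝ F]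

theorem dd_neg (v : F) (f : F → ℝ) : dd (-v) f = fun x => -(dd v f x) := by
  funext x; simp [dd]

theorem dd_fneg (v : F) (f : F → ℝ) : dd v (fun x => -(f x)) = fun x => -(dd v f x) := by
  funext x; simp [dd, fderiv_fun_neg]

theorem dd3_neg (v : F) (w : F → ℝ) (x : F) :
    dd (-v) (dd (-v) (dd (-v) w)) x = -(dd v (dd v (dd v w)) x) := by
  rw [dd_neg v w, dd_fneg, dd_neg v (dd v w)]
  simp only [neg_neg]
  rw [dd_neg]

theorem dd2_neg (v : F) (w : F → ℝ) (x : F) :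
    dd (-v) (dd (-v) w) x = dd v (dd v w) x := by
  rw [dd_neg v w, dd_fneg, dd_neg v (dd v w)]
  simp only [neg_neg]

theorem line_raw {a b C3 C4 κ ε M : ℝ} {w : F → ℝ} (h : St a b C3 C4 κ ε w) (ha : 0 < a)
    (hε : 0 ≤ ε) (hM : 0 < M) (hMκ : κ + ε / (2 * a ^ (3 / 2 : ℝ)) ≤ M) {θ : F} (hθ : ‖θ‖ = 1) :
    0 < ∫ t : ℝ, exp (-w (t • θ)) ∧
    |k3 (∫ t : ℝ, exp (-w (t • θ))) (∫ t : ℝ, t * exp (-w (t • θ)))
        (∫ t : ℝ, t ^ 2 * exp (-w (t • θ))) (∫ t : ℝ, t ^ 3 * exp (-w (t • θ)))|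
      ≤ 2 * M * (k2 (∫ t : ℝ, exp (-w (t • θ))) (∫ t : ℝ, t * exp (-w (t • θ)))
        (∫ t : ℝ, t ^ 2 * exp (-w (t • θ)))) ^ (3 / 2 : ℝ) := by
  have hs := h.smooth
  have s1 := L6.contDiff_dd hs θ
  have s2 := L6.contDiff_dd s1 θ
  have d0 := fun t => L6.hasDerivAt_line (L6.differentiable_of_smooth hs) 0 θ t
  have d1 := fun t => L6.hasDerivAt_line (L6.differentiable_of_smooth s1) 0 θ t
  have d2 := fun t => L6.hasDerivAt_line (L6.differentiable_of_smooth s2) 0 θ t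
  simp only [zero_add] at d0 d1 d2
  refine sk_raw d0 d1 d2 ha hM (fun t => ?_) (fun t => ?_)
  · have := h.lower (t • θ) θ
    rwa [hθ, one_pow, mul_one] at this
  · have hl : a ≤ dd θ (dd θ w) (t • θ) := by
      have := h.lower (t • θ) θ
      rwa [hθ, one_pow, mul_one] at this
    have p1 := h.sc (t • θ) θ
    have p2 := h.sc (t • θ) (-θ)
    rw [dd3_neg, dd2_neg, norm_neg] at p2
    rw [hθ, one_pow, mul_one] at p1 p2
    have q0 : a ^ (3 / 2 : ℝ) ≤ (dd θ (dd θ w) (t • θ)) ^ (3 / 2 : ℝ) :=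
      Real.rpow_le_rpow ha.le hl (by norm_num)
    have q1 : 0 < a ^ (3 / 2 : ℝ) := Real.rpow_pos_of_pos ha _
    set X := (dd θ (dd θ w) (t • θ)) ^ (3 / 2 : ℝ) with hX
    have q2 : ε ≤ 2 * (ε / (2 * a ^ (3 / 2 : ℝ))) * X := by
      calc ε = 2 * (ε / (2 * a ^ (3 / 2 : ℝ))) * a ^ (3 / 2 : ℝ) := by field_simp
        _ ≤ _ := mul_le_mul_of_nonneg_left q0 (by positivity)
    have q3 : 2 * (κ + ε / (2 * a ^ (3 / 2 : ℝ))) * X ≤ 2 * M * X :=
      mul_le_mul_of_nonneg_right (by linarith) (q1.le.trans q0)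
    rw [abs_le]
    constructor <;> linarith

theorem quad_low {a b C3 C4 κ ε : ℝ} {w : F → ℝ} (h : St a b C3 C4 κ ε w) (ha : 0 < a) :
    ∃ B, ∀ x, a / 4 * ‖x‖ ^ 2 - B ≤ w x := by
  have hs := h.smooth
  refine ⟨‖fderiv ℝ w 0‖ ^ 2 / a - w 0, fun x => ?_⟩
  -- the function g t = w (t x) - w 0 - t w'(0) x - a t^2 |x|^2/2
  have s1 := L6.contDiff_dd hs x
  have d0 := fun t => L6.hasDerivAt_line (L6.differentiable_of_smooth hs) 0 x t
  have d1 := fun t => L6.hasDerivAt_line (L6.differentiable_of_smooth s1) 0 x t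
  simp only [zero_add] at d0 d1
  have key : w 0 + dd x w 0 + a * ‖x‖ ^ 2 / 2 ≤ w x := by
    have := quad_lower (W := fun t : ℝ => w (t • x)) (W1 := fun t : ℝ => dd x w (t • x))
      (W2 := fun t : ℝ => dd x (dd x w) (t • x)) d0 d1 (a := a * ‖x‖ ^ 2)
      (fun t => h.lower (t • x) x) 1
    simp only [zero_smul, one_smul, mul_one, one_pow] at this
    linarith
  have hb : |dd x w 0| ≤ ‖fderiv ℝ w 0‖ * ‖x‖ := by
    rw [← Real.norm_eq_abs]; exact (fderiv ℝ w 0).le_opNorm x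
  have hb' := (abs_le.1 hb).1
  have sq : 0 ≤ a * (‖x‖ / 2 - ‖fderiv ℝ w 0‖ / a) ^ 2 := by positivity
  have e : a * (‖x‖ / 2 - ‖fderiv ℝ w 0‖ / a) ^ 2 =
      a * ‖x‖ ^ 2 / 4 - ‖fderiv ℝ w 0‖ * ‖x‖ + ‖fderiv ℝ w 0‖ ^ 2 / a := by
    field_simp; ring
  rw [e] at sq
  linarith

end Line

/-- the choice of the scales -/
theorem exists_scale {F : Type*} [NormedAddCommGroup F] [NormedSpace ℝ F] (hS : StepStmt F)
    {c C C3 C4 κ : ℝ} (hc : 0 < c) (hC : 0 ≤ C) (h3 : 0 ≤ C3) (h4 : 0 ≤ C4) (hκ0 : 0 ≤ κ)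
    (hκ1 : κ ≤ 1) (m : ℕ) (i : ℕ) :
    ∃ (a d ε : ℝ) (K : ℕ), 0 < a ∧ 0 < d ∧ d ≤ 1 / ((i : ℝ) + 1) ∧ 0 ≤ ε ∧ 0 < K ∧
      (i : ℝ) + 1 ≤ K * d ^ 2 ∧ ε / (2 * a ^ (3 / 2 : ℝ)) ≤ 1 / ((i : ℝ) + 1) ∧
      ∀ (e : Fin m → F), (∀ j, ‖e j‖ = 1) → ∀ w : F → ℝ, St c C C3 C4 κ 0 w →
        ∃ c3 c4, St a C c3 c4 κ ε (ML.avgs d (ML.dirs (2 * K) e) w) := by
  obtain ⟨a, ha, K', hK', d0, hd0, H⟩ := iter_step hS hc hC h3 h4 hκ0 hκ1
    (S := 2 * m * ((i : ℝ) + 2)) (by positivity)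
  have hi : (0 : ℝ) < (i : ℝ) + 1 := by positivity
  have hap : 0 < a ^ (3 / 2 : ℝ) := Real.rpow_pos_of_pos ha _
  set d : ℝ := min (min d0 (1 / ((i : ℝ) + 1))) ((1 / ((i : ℝ) + 1)) * (2 * a ^ (3 / 2 : ℝ)) / (K' + 1))
    with hd
  have hdp : 0 < d := by positivity
  have hd1 : d ≤ 1 / ((i : ℝ) + 1) := (min_le_left _ _).trans (min_le_right _ _)
  have hdd0 : d ≤ d0 := (min_le_left _ _).trans (min_le_left _ _)
  have hd2 : d ≤ (1 / ((i : ℝ) + 1)) * (2 * a ^ (3 / 2 : ℝ)) / (K' + 1) := min_le_right _ _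
  have hd1' : d ≤ 1 := hd1.trans (by rw [div_le_one hi]; linarith [(Nat.cast_nonneg i : (0:ℝ) ≤ i)])
  have hdsq : d ^ 2 ≤ 1 := pow_le_one₀ hdp.le hd1'
  have hdsq0 : 0 < d ^ 2 := by positivity
  set K : ℕ := ⌈((i : ℝ) + 1) / d ^ 2⌉₊ with hK
  have hKl : (i : ℝ) + 1 ≤ K * d ^ 2 := by
    have := Nat.le_ceil (((i : ℝ) + 1) / d ^ 2)
    rwa [div_le_iff₀ hdsq0] at this
  have hKu : (K : ℝ) * d ^ 2 ≤ (i : ℝ) + 2 := by
    have h1 := Nat.ceil_lt_add_one (a := ((i : ℝ) + 1) / d ^ 2) (by positivity)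
    have h2 : (K : ℝ) * d ^ 2 ≤ (((i : ℝ) + 1) / d ^ 2 + 1) * d ^ 2 :=
      mul_le_mul_of_nonneg_right h1.le hdsq0.le
    have h3 : (((i : ℝ) + 1) / d ^ 2 + 1) * d ^ 2 = (i : ℝ) + 1 + d ^ 2 := by field_simp
    linarith
  have hKp : 0 < K := by
    rcases Nat.eq_zero_or_pos K with h | h
    · rw [h] at hKl; simp at hKl; linarith
    · exact h
  refine ⟨a, d, K' * d, K, ha, hdp, hd1, by positivity, hKp, hKl, ?_, ?_⟩
  · rw [div_le_iff₀ (by positivity)]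
    have h1 := mul_le_mul_of_nonneg_left hd2 (show 0 ≤ K' + 1 by positivity)
    have h2 : (K' + 1) * ((1 / ((i : ℝ) + 1)) * (2 * a ^ (3 / 2 : ℝ)) / (K' + 1)) =
      (1 / ((i : ℝ) + 1)) * (2 * a ^ (3 / 2 : ℝ)) := by field_simp
    rw [h2] at h1
    linarith
  · intro e he w hw
    have hlen : ((ML.dirs (2 * K) e).reverse.length : ℝ) * d ^ 2 ≤ 2 * m * ((i : ℝ) + 2) := by
      rw [List.length_reverse, ML.length_dirs]
      push_cast
      have := mul_le_mul_of_nonneg_left hKu (show (0:ℝ) ≤ 2 * m by positivity)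
      calc (m : ℝ) * (2 * K) * d ^ 2 = 2 * m * (K * d ^ 2) := by ring
        _ ≤ _ := this
    obtain ⟨c3, c4, h⟩ := H d hdp hdd0 (ML.dirs (2 * K) e).reverse (fun v hv => by
      obtain ⟨j, hj⟩ := ML.mem_dirs (List.mem_reverse.1 hv)
      rw [hj]; exact he j) hlen w hw
    refine ⟨c3, c4, ?_⟩
    have e1 : fold d (ML.dirs (2 * K) e).reverse w = ML.avgs d (ML.dirs (2 * K) e) w := by
      unfold fold ML.avgs
      rw [List.foldl_reverse]
    rwa [e1] at h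

theorem raw_limit {m : ℕ} (hS : StepStmt (E (m + 1))) {c C C3 C4 κ : ℝ} (hc : 0 < c) (hC : 0 ≤ C)
    (h3 : 0 ≤ C3) (h4 : 0 ≤ C4) (hκ0 : 0 ≤ κ) (hκ1 : κ ≤ 1) {V : E (m + 1) → ℝ}
    (hV : St c C C3 C4 κ 0 V) (b : OrthonormalBasis (Fin (m + 1)) ℝ (E (m + 1)))
    (hR0 : (∫ y : E (m + 1), (inner ℝ (b 0) y) ^ 0 * exp (-V y)) ≠ 0) :
    |k3 (∫ y : E (m + 1), (inner ℝ (b 0) y) ^ 0 * exp (-V y))
        (∫ y : E (m + 1), (inner ℝ (b 0) y) ^ 1 * exp (-V y))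
        (∫ y : E (m + 1), (inner ℝ (b 0) y) ^ 2 * exp (-V y))
        (∫ y : E (m + 1), (inner ℝ (b 0) y) ^ 3 * exp (-V y))| ≤
      2 * κ * (k2 (∫ y : E (m + 1), (inner ℝ (b 0) y) ^ 0 * exp (-V y))
        (∫ y : E (m + 1), (inner ℝ (b 0) y) ^ 1 * exp (-V y))
        (∫ y : E (m + 1), (inner ℝ (b 0) y) ^ 2 * exp (-V y))) ^ (3 / 2 : ℝ) := by
  choose a d ε K ha hd hd1 hε hK hKd hεa hst using
    fun i => exists_scale hS hc hC h3 h4 hκ0 hκ1 m i
  obtain ⟨B, hB⟩ := quad_low hV hc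
  have t1 : Tendsto (fun i : ℕ => 1 / ((i : ℝ) + 1)) atTop (𝓝 0) := tendsto_one_div_add_atTop_nhds_zero_nat
  have hd0 : Tendsto d atTop (𝓝 0) :=
    squeeze_zero (fun i => (hd i).le) hd1 t1
  have hKd' : Tendsto (fun i => (K i : ℝ) * d i ^ 2) atTop atTop := by
    refine tendsto_atTop_mono hKd ?_
    exact tendsto_atTop_add_const_right _ _ tendsto_natCast_atTop_atTop
  have lim := fun k => ML.mom_lim_avgs b (W := V) (B := B) (a := c / 4) hV.smooth.continuous hB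
    (by positivity) hd hd0 hK hKd' k
  have hM : Tendsto (fun i : ℕ => κ + 1 / ((i : ℝ) + 1)) atTop (𝓝 κ) := by
    simpa using tendsto_const_nhds.add t1
  refine pass_limit (lim 0) (lim 1) (lim 2) (lim 3) hR0 hM fun i => ?_
  obtain ⟨c3, c4, hi⟩ := hst i (fun j : Fin m => b j.succ) (fun j => b.norm_eq_one _) V hV
  have hN : ML.nrm (K i) (d i) ^ m ≠ 0 := (pow_pos (ML.nrm_pos (K i) (hd i)) m).ne'
  have hi0 : (0 : ℝ) < 1 / ((i : ℝ) + 1) := by positivity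
  have key := (line_raw hi (ha i) (hε i) (M := κ + 1 / ((i : ℝ) + 1)) (by linarith)
    (by linarith [hεa i]) (θ := b 0) (b.norm_eq_one _)).2
  rw [k3_scale hN, k2_scale hN]
  simpa only [pow_zero, one_mul, pow_one] using key

/-- adding a linear function -/
theorem St_tilt {F : Type*} [NormedAddCommGroup F] [InnerProductSpace ℝ F]
    {a b C3 C4 κ ε : ℝ} {w : F → ℝ} (h : St a b C3 C4 κ ε w) (y : F) :
    St a b C3 C4 κ ε (fun x => w x - inner ℝ x y) := by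
  have hs := h.smooth
  have hl : ContDiff ℝ (⊤ : ℕ∞) (fun x : F => (inner ℝ x y : ℝ)) := contDiff_id.inner ℝ contDiff_const
  have e1 : ∀ v : F, dd v (fun x => w x - inner ℝ x y) = fun x => dd v w x - inner ℝ v y := by
    intro v
    funext x
    have h1 : HasFDerivAt (fun x : F => (inner ℝ x y : ℝ)) (innerSL ℝ y) x := by
      have := (innerSL ℝ y).hasFDerivAt (x := x)
      refine this.congr_of_eventuallyEq (Eventually.of_forall fun z => ?_)
      simp [real_inner_comm]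
    have h2 := ((L6.differentiable_of_smooth hs x).hasFDerivAt.sub h1).fderiv
    show fderiv ℝ (fun x => w x - inner ℝ x y) x v = _
    have h3 : fderiv ℝ (fun x => w x - inner ℝ x y) x = fderiv ℝ w x - innerSL ℝ y := h2
    rw [h3]
    simp [dd, real_inner_comm]
  have e2 : ∀ u v : F, dd u (dd v (fun x => w x - inner ℝ x y)) = dd u (dd v w) := by
    intro u v
    rw [e1]
    funext x
    show fderiv ℝ (fun x => dd v w x - inner ℝ v y) x u = _
    rw [fderiv_sub_const]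
    rfl
  refine ⟨hs.sub hl, ?_, ?_, ?_, ?_, ?_⟩
  · intro x v; rw [e2]; exact h.lower x v
  · intro x v; rw [e2]; exact h.upper x v
  · intro x v₁ v₂ v₃; rw [e2]; exact h.b3 x v₁ v₂ v₃
  · intro x v₁ v₂ v₃ v₄; rw [e2]; exact h.b4 x v₁ v₂ v₃ v₄
  · intro x v; rw [e2]; exact h.sc x v

/-- an orthonormal basis starting with a given unit vector -/
theorem exists_basis {m : ℕ} {θ : E (m + 1)} (hθ : ‖θ‖ = 1) :
    ∃ b : OrthonormalBasis (Fin (m + 1)) ℝ (E (m + 1)), b 0 = θ := by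
  have hc : Module.finrank ℝ (E (m + 1)) = Fintype.card (Fin (m + 1)) := by simp
  have hv : Orthonormal ℝ (({0} : Set (Fin (m + 1))).domRestrict (fun _ => θ)) := by
    refine ⟨fun i => hθ, fun i j hij => ?_⟩
    exact absurd (Subsingleton.elim i j) hij
  obtain ⟨b, hb⟩ := hv.exists_orthonormalBasis_extension_of_card_eq hc
  exact ⟨b, hb 0 (by simp)⟩

theorem c2_c3_zero {n : ℕ} {W : E n → ℝ} {a B : ℝ} (hG : LL.Gr W a B) (y : E n) :
    LL.c3 W y 0 = 0 := by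
  rw [LL.c3_eq hG]
  have h1 : LL.av W y (fun x : E n => (inner ℝ x (0 : E n) : ℝ)) = 0 := by
    simp only [inner_zero_right]
    exact LL.av_const hG y 0
  have h3 : LL.av W y (fun x : E n => (inner ℝ x (0 : E n) : ℝ) ^ 3) = 0 := by
    simp only [inner_zero_right]
    rw [LL.av_const hG]
    norm_num
  rw [h1, h3]
  norm_num

theorem main {m : ℕ} (hS : StepStmt (E (m + 1))) {c C C3 C4 κ : ℝ} (hc : 0 < c) (hC : 0 ≤ C)
    (h3 : 0 ≤ C3) (h4 : 0 ≤ C4) (hκ0 : 0 ≤ κ) (hκ1 : κ ≤ 1) {W : E (m + 1) → ℝ}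
    (hW : St c C C3 C4 κ 0 W) {a B : ℝ} (hG : LL.Gr W a B) (y v : E (m + 1)) :
    |LL.c3 W y v| ≤ 2 * κ * (LL.c2 W y v) ^ ((3 : ℝ) / 2) := by
  by_cases hv : v = 0
  · subst hv
    rw [c2_c3_zero hG, abs_zero]
    have := Real.rpow_nonneg (LL.c2_nonneg hG y 0) ((3 : ℝ) / 2)
    positivity
  · have hv0 : 0 < ‖v‖ := norm_pos_iff.2 hv
    have hθ : ‖(‖v‖⁻¹ • v : E (m + 1))‖ = 1 := by
      rw [norm_smul, norm_inv, norm_norm, inv_mul_cancel₀ hv0.ne']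
    obtain ⟨b, hb⟩ := exists_basis hθ
    have hZ := LL.Z_pos hG y
    have hR : ∀ k : ℕ, (∫ x : E (m + 1), (inner ℝ (b 0) x) ^ k * exp (-(W x - inner ℝ x y))) =
        LL.Z W y * ((‖v‖ ^ k)⁻¹ * LL.av W y (fun x => (inner ℝ x v) ^ k)) := by
      intro k
      have h1 : LL.Z W y * ((‖v‖ ^ k)⁻¹ * LL.av W y (fun x => (inner ℝ x v) ^ k)) =
          (‖v‖ ^ k)⁻¹ * LL.I W (fun x => (inner ℝ x v) ^ k) y := by
        unfold LL.av
        rw [smul_eq_mul]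
        field_simp
      rw [h1, LL.I, ← integral_const_mul]
      refine integral_congr_ae (Eventually.of_forall fun x => ?_)
      show (inner ℝ (b 0) x) ^ k * exp (-(W x - inner ℝ x y)) =
        (‖v‖ ^ k)⁻¹ * (exp (inner ℝ x y - W x) * (inner ℝ x v) ^ k)
      rw [hb, inner_smul_left, real_inner_comm v x, neg_sub, mul_pow]
      simp only [conj_trivial, inv_pow]
      ring
    have key := raw_limit hS hc hC h3 h4 hκ0 hκ1 (St_tilt hW y) b (by
      rw [hR 0]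
      simp only [pow_zero, inv_one, one_mul]
      rw [LL.av_one hG, mul_one]
      exact hZ.ne')
    have q2 : k2 (∫ x : E (m + 1), (inner ℝ (b 0) x) ^ 0 * exp (-(W x - inner ℝ x y)))
        (∫ x : E (m + 1), (inner ℝ (b 0) x) ^ 1 * exp (-(W x - inner ℝ x y)))
        (∫ x : E (m + 1), (inner ℝ (b 0) x) ^ 2 * exp (-(W x - inner ℝ x y))) =
        LL.c2 W y v / ‖v‖ ^ 2 := by
      rw [hR 0, hR 1, hR 2, k2_scale hZ.ne', k2, LL.c2_eq hG]
      simp only [pow_zero, pow_one, inv_one, one_mul]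
      rw [LL.av_one hG]
      field_simp
    have q3 : k3 (∫ x : E (m + 1), (inner ℝ (b 0) x) ^ 0 * exp (-(W x - inner ℝ x y)))
        (∫ x : E (m + 1), (inner ℝ (b 0) x) ^ 1 * exp (-(W x - inner ℝ x y)))
        (∫ x : E (m + 1), (inner ℝ (b 0) x) ^ 2 * exp (-(W x - inner ℝ x y)))
        (∫ x : E (m + 1), (inner ℝ (b 0) x) ^ 3 * exp (-(W x - inner ℝ x y))) =
        LL.c3 W y v / ‖v‖ ^ 3 := by
      rw [hR 0, hR 1, hR 2, hR 3, k3_scale hZ.ne', k3, LL.c3_eq hG]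
      simp only [pow_zero, pow_one, inv_one, one_mul]
      rw [LL.av_one hG]
      field_simp
    have q4 : (LL.c2 W y v / ‖v‖ ^ 2) ^ (3 / 2 : ℝ) = (LL.c2 W y v) ^ (3 / 2 : ℝ) / ‖v‖ ^ 3 := by
      rw [Real.div_rpow (LL.c2_nonneg hG y v) (by positivity)]
      congr 1
      rw [← Real.rpow_natCast, ← Real.rpow_natCast, ← Real.rpow_mul hv0.le]
      norm_num
    rw [q2, q3, q4, abs_div, abs_of_pos (pow_pos hv0 3), ← mul_div_assoc] at key
    exact (div_le_div_iff_of_pos_right (pow_pos hv0 3)).1 key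

/-- **the block SC, modulo the two-point step** -/
theorem _root_.Vale.Agent.P227.M.SC.stmtSC_of_step192 (hS : ∀ n, StepStmt (E n)) : StmtSC := by
  intro n W c C κ hR hκ0 hκ1 hSC y v
  obtain ⟨C3, C4, h3, h4, hSt⟩ := st_of_reg hR hSC
  have hc := hR.c_pos
  obtain ⟨B, hB⟩ := quad_low hSt hc
  have hG : LL.Gr W (c / 4) B := ⟨hR.smooth.continuous, by positivity, hB⟩
  have hL : (fun t : ℝ => logLap W (y + t • v)) = fun t : ℝ => LL.Lam W (y + t • v) := rfl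
  have d1 : deriv (fun t : ℝ => LL.Lam W (y + t • v)) =
      fun t => LL.av W (y + t • v) (fun x => (inner ℝ x v : ℝ)) :=
    funext fun t => (LL.hasDerivAt_Lam hG y v t).deriv
  have d2 : deriv (fun t : ℝ => LL.av W (y + t • v) (fun x => (inner ℝ x v : ℝ))) =
      fun t => LL.c2 W (y + t • v) v := funext fun t => (LL.hasDerivAt_m1 hG y v t).deriv
  have d3 : deriv (fun t : ℝ => LL.c2 W (y + t • v) v) =
      fun t => LL.c3 W (y + t • v) v := funext fun t => (LL.hasDerivAt_c2 hG y v t).deriv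
  have e2 : iteratedDeriv 2 (fun t : ℝ => logLap W (y + t • v)) 0 = LL.c2 W y v := by
    rw [hL, iteratedDeriv_succ, iteratedDeriv_one, d1, d2]
    simp only [zero_smul, add_zero]
  have e3 : iteratedDeriv 3 (fun t : ℝ => logLap W (y + t • v)) 0 = LL.c3 W y v := by
    rw [hL, iteratedDeriv_succ, iteratedDeriv_succ, iteratedDeriv_one, d1, d2, d3]
    simp only [zero_smul, add_zero]
  rw [e2, e3]
  rcases n with _ | m
  · have hv : v = 0 := Subsingleton.elim _ _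
    subst hv
    rw [c2_c3_zero hG, abs_zero]
    have := Real.rpow_nonneg (LL.c2_nonneg hG y 0) ((3 : ℝ) / 2)
    positivity
  · have hC : 0 ≤ C := by
      have h1 := hR.lower 0 (EuclideanSpace.single 0 1)
      have h2 := hR.upper 0 (EuclideanSpace.single 0 1)
      have h3 : ‖(EuclideanSpace.single 0 1 : E (m + 1))‖ = 1 := by simp
      rw [h3] at h1 h2
      linarith
    exact main (hS (m + 1)) hc hC h3 h4 hκ0 hκ1 hSt hG y v

end Vale.Agent.P227.M.SC.F192
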