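import Vale.Agent.P227.M.SC.StepDefs

/-! # P227/M/SC: iteration of the two-point step (helper192) -/

namespace Vale.Agent.P227.M.SC.F192

open Real

variable {E : Type*} [NormedAddCommGroup E] [NormedSpace ℝ E]

theorem St_mono {a b C3 C4 κ ε : ℝ} {w : E → ℝ} (h : St a b C3 C4 κ ε w) {a' C3' C4' ε' : ℝ}
    (ha : a' ≤ a) (h3 : C3 ≤ C3') (h4 : C4 ≤ C4') (he : ε ≤ ε') : St a' b C3' C4' κ ε' w where
  smooth := h.smooth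
  lower x v := le_trans (mul_le_mul_of_nonneg_right ha (by positivity)) (h.lower x v)
  upper := h.upper
  b3 x v₁ v₂ v₃ := (h.b3 x v₁ v₂ v₃).trans (mul_le_mul_of_nonneg_right h3 (by positivity))
  b4 x v₁ v₂ v₃ v₄ := (h.b4 x v₁ v₂ v₃ v₄).trans (mul_le_mul_of_nonneg_right h4 (by positivity))
  sc x v := (h.sc x v).trans (by
    have := mul_le_mul_of_nonneg_right he (show (0:ℝ) ≤ ‖v‖ ^ 3 by positivity)
    linarith)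

/-- apply the two-point averages in the directions of the list -/
noncomputable def fold (δ : ℝ) (l : List E) (w : E → ℝ) : E → ℝ :=
  l.foldl (fun w e => avg δ e w) w

theorem exp_le_one_sub {x : ℝ} (h0 : 0 ≤ x) (h1 : x ≤ 1 / 2) : exp (-(2 * x)) ≤ 1 - x := by
  have := Real.add_one_le_exp (2 * x)
  rw [Real.exp_neg, inv_le_comm₀ (exp_pos _) (by linarith)]
  refine le_trans ?_ this
  rw [inv_le_iff_one_le_mul₀ (by linarith)]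
  nlinarith

theorem pow_ge {b δ S : ℝ} {N : ℕ} (hb : 0 ≤ b) (hbδ : b * δ ^ 2 ≤ 1 / 2) (hN : (N : ℝ) * δ ^ 2 ≤ S) :
    exp (-(2 * b * S)) ≤ (1 - b * δ ^ 2) ^ N := by
  have q1 := exp_le_one_sub (x := b * δ ^ 2) (by positivity) hbδ
  have q2 := mul_le_mul_of_nonneg_left hN hb
  calc exp (-(2 * b * S)) ≤ exp (N * -(2 * (b * δ ^ 2))) := by
        apply exp_le_exp.2; linarith
    _ = (exp (-(2 * (b * δ ^ 2)))) ^ N := by rw [← Real.exp_nat_mul]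
    _ ≤ _ := pow_le_pow_left₀ (exp_pos _).le q1 _

theorem a_ge {a b K δ S a0 a' : ℝ} {N : ℕ} (ha : 0 < a) (hb : 0 ≤ b) (hK : 0 ≤ K) (hS : 0 ≤ S)
    (hδ : 0 < δ) (hbδ : b * δ ^ 2 ≤ 1 / 2) (hN : (N : ℝ) * δ ^ 2 ≤ S)
    (ha0 : a0 = a * exp (-(2 * b * S)) / 2) (hδa : δ * (K * S + 1) ≤ a0)
    (h1 : a * (1 - b * δ ^ 2) ^ N - N * (K * δ ^ 3) ≤ a') : a0 ≤ a' := by
  refine le_trans ?_ h1
  have e2 : a * exp (-(2 * b * S)) ≤ a * (1 - b * δ ^ 2) ^ N :=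
    mul_le_mul_of_nonneg_left (pow_ge hb hbδ hN) ha.le
  have hNδ3 : (N : ℝ) * δ ^ 3 ≤ S * δ := by
    have : (N : ℝ) * δ ^ 3 = (N * δ ^ 2) * δ := by ring
    rw [this]; exact mul_le_mul_of_nonneg_right hN hδ.le
  have e3 : (N : ℝ) * (K * δ ^ 3) ≤ a0 := by
    have : (N : ℝ) * (K * δ ^ 3) = K * (N * δ ^ 3) := by ring
    rw [this]
    have q := mul_le_mul_of_nonneg_left hNδ3 hK
    have q3 : δ * (K * S + 1) = K * (S * δ) + δ := by ring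
    linarith
  rw [ha0] at e3 ⊢
  linarith

theorem e_le {K δ S ε' : ℝ} {N : ℕ} (hK : 0 ≤ K) (hS : 0 ≤ S)
    (hδ : 0 < δ) (hN : (N : ℝ) * δ ^ 2 ≤ S)
    (h6 : ε' ≤ N * (K * δ ^ 3) * exp (K * (N * δ ^ 2))) : ε' ≤ K * S * exp (K * S) * δ := by
  refine h6.trans ?_
  have hNδ3 : (N : ℝ) * δ ^ 3 ≤ S * δ := by
    have : (N : ℝ) * δ ^ 3 = (N * δ ^ 2) * δ := by ring
    rw [this]; exact mul_le_mul_of_nonneg_right hN hδ.le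
  have e1 : (N : ℝ) * (K * δ ^ 3) ≤ K * S * δ := by
    have q := mul_le_mul_of_nonneg_left hNδ3 hK
    calc (N : ℝ) * (K * δ ^ 3) = K * (N * δ ^ 3) := by ring
      _ ≤ K * (S * δ) := q
      _ = _ := by ring
  have e2 : exp (K * (N * δ ^ 2)) ≤ exp (K * S) :=
    exp_le_exp.2 (mul_le_mul_of_nonneg_left hN hK)
  calc _ ≤ (K * S * δ) * exp (K * S) := mul_le_mul e1 e2 (exp_pos _).le (by positivity)
    _ = _ := by ring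

theorem c3_step {C3 b δ c3 : ℝ} {x : ℝ} (hx : 0 ≤ x) (h3 : 0 ≤ C3) (hb : 0 ≤ b) (hδ : 0 < δ)
    (h2 : 0 ≤ c3) (h2' : c3 ≤ (C3 + 2 * b ^ 3 * (x * δ ^ 3)) * exp (3 * b * (x * δ ^ 2))) :
    c3 * (1 + 3 * b * δ ^ 2) + 2 * b ^ 3 * δ ^ 3 ≤
      (C3 + 2 * b ^ 3 * ((x + 1) * δ ^ 3)) * exp (3 * b * ((x + 1) * δ ^ 2)) := by
  have e0 : 1 + 3 * b * δ ^ 2 ≤ exp (3 * b * δ ^ 2) := by
    have := Real.add_one_le_exp (3 * b * δ ^ 2); linarith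
  have e1 : exp (3 * b * ((x + 1) * δ ^ 2)) = exp (3 * b * (x * δ ^ 2)) * exp (3 * b * δ ^ 2) := by
    rw [← exp_add]; ring_nf
  have e2 : c3 * (1 + 3 * b * δ ^ 2) ≤ (C3 + 2 * b ^ 3 * (x * δ ^ 3)) *
      exp (3 * b * (x * δ ^ 2)) * exp (3 * b * δ ^ 2) :=
    mul_le_mul h2' e0 (by positivity) (by positivity)
  have e3 : 1 ≤ exp (3 * b * ((x + 1) * δ ^ 2)) := by
    rw [← Real.exp_zero]; apply exp_le_exp.2; positivity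
  have e4 : 2 * b ^ 3 * δ ^ 3 ≤ 2 * b ^ 3 * δ ^ 3 * exp (3 * b * ((x + 1) * δ ^ 2)) :=
    le_mul_of_one_le_right (by positivity) e3
  calc _ ≤ _ := add_le_add e2 e4
    _ = _ := by rw [e1]; ring

theorem c4_step {C4 b δ c4 Q R : ℝ} {x : ℝ} (hx : 0 ≤ x) (h4 : 0 ≤ C4) (hb : 0 ≤ b) (hδ : 0 < δ)
    (hQ : 0 ≤ Q) (hR : R ≤ Q)
    (h2' : c4 ≤ (C4 + x * δ ^ 2 * Q) * exp (4 * b * (x * δ ^ 2))) :
    c4 * (1 + 4 * b * δ ^ 2) + δ ^ 2 * R ≤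
      (C4 + (x + 1) * δ ^ 2 * Q) * exp (4 * b * ((x + 1) * δ ^ 2)) := by
  have e0 : 1 + 4 * b * δ ^ 2 ≤ exp (4 * b * δ ^ 2) := by
    have := Real.add_one_le_exp (4 * b * δ ^ 2); linarith
  have e1 : exp (4 * b * ((x + 1) * δ ^ 2)) = exp (4 * b * (x * δ ^ 2)) * exp (4 * b * δ ^ 2) := by
    rw [← exp_add]; ring_nf
  have e2 : c4 * (1 + 4 * b * δ ^ 2) ≤ (C4 + x * δ ^ 2 * Q) *
      exp (4 * b * (x * δ ^ 2)) * exp (4 * b * δ ^ 2) := by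
    calc c4 * (1 + 4 * b * δ ^ 2) ≤ ((C4 + x * δ ^ 2 * Q) * exp (4 * b * (x * δ ^ 2))) *
          (1 + 4 * b * δ ^ 2) := mul_le_mul_of_nonneg_right h2' (by positivity)
      _ ≤ _ := mul_le_mul_of_nonneg_left e0 (by positivity)
  have e3 : 1 ≤ exp (4 * b * ((x + 1) * δ ^ 2)) := by
    rw [← Real.exp_zero]; apply exp_le_exp.2; positivity
  have e4 : δ ^ 2 * R ≤ δ ^ 2 * Q * exp (4 * b * ((x + 1) * δ ^ 2)) :=
    (mul_le_mul_of_nonneg_left hR (by positivity)).trans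
      (le_mul_of_one_le_right (by positivity) e3)
  calc _ ≤ _ := add_le_add e2 e4
    _ = _ := by rw [e1]; ring

theorem eps_step {K δ ε' : ℝ} {x : ℝ} (hx : 0 ≤ x) (hK : 0 ≤ K) (hδ : 0 < δ) (h5 : 0 ≤ ε')
    (h6 : ε' ≤ x * (K * δ ^ 3) * exp (K * (x * δ ^ 2))) :
    ε' * (1 + K * δ ^ 2) + K * δ ^ 3 ≤ (x + 1) * (K * δ ^ 3) * exp (K * ((x + 1) * δ ^ 2)) := by
  have e0 : 1 + K * δ ^ 2 ≤ exp (K * δ ^ 2) := by
    have := Real.add_one_le_exp (K * δ ^ 2); linarith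
  have e1 : exp (K * ((x + 1) * δ ^ 2)) = exp (K * (x * δ ^ 2)) * exp (K * δ ^ 2) := by
    rw [← exp_add]; ring_nf
  have e2 : ε' * (1 + K * δ ^ 2) ≤ (x * (K * δ ^ 3) * exp (K * (x * δ ^ 2))) * exp (K * δ ^ 2) :=
    mul_le_mul h6 e0 (by positivity) (by positivity)
  have e3 : 1 ≤ exp (K * ((x + 1) * δ ^ 2)) := by
    rw [← Real.exp_zero]; apply exp_le_exp.2; positivity
  have e4 : K * δ ^ 3 ≤ K * δ ^ 3 * exp (K * ((x + 1) * δ ^ 2)) :=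
    le_mul_of_one_le_right (by positivity) e3
  calc _ ≤ _ := add_le_add e2 e4
    _ = _ := by rw [e1]; ring

theorem a_step {a b K δ a' : ℝ} {N : ℕ} (hb : 0 ≤ b) (hK : 0 ≤ K) (hδ : 0 < δ)
    (hbδ : b * δ ^ 2 ≤ 1 / 2) (h1 : a * (1 - b * δ ^ 2) ^ N - N * (K * δ ^ 3) ≤ a') :
    a * (1 - b * δ ^ 2) ^ (N + 1) - ((N : ℝ) + 1) * (K * δ ^ 3) ≤
      a' * (1 - b * δ ^ 2) - K * δ ^ 3 := by
  have hbb : 0 ≤ b * δ ^ 2 := by positivity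
  have q2 : (0 : ℝ) ≤ 1 - b * δ ^ 2 := by linarith
  have q3 := mul_le_mul_of_nonneg_right h1 q2
  have q4 : (N : ℝ) * (K * δ ^ 3) * (1 - b * δ ^ 2) ≤ N * (K * δ ^ 3) := by
    have h : 0 ≤ (N : ℝ) * (K * δ ^ 3) := by positivity
    exact mul_le_of_le_one_right h (by linarith)
  rw [pow_succ]
  linarith

theorem c3_ub {C3 b δ S c3 : ℝ} {x : ℝ} (hx : 0 ≤ x) (h3 : 0 ≤ C3) (hb : 0 ≤ b) (hδ : 0 < δ)
    (hδ1 : δ ≤ 1) (hS : 0 ≤ S) (hN : x * δ ^ 2 ≤ S)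
    (h2' : c3 ≤ (C3 + 2 * b ^ 3 * (x * δ ^ 3)) * exp (3 * b * (x * δ ^ 2))) :
    c3 ≤ (C3 + 2 * b ^ 3 * S) * exp (3 * b * S) := by
  refine h2'.trans ?_
  have hδ3 : δ ^ 3 ≤ δ ^ 2 := pow_le_pow_of_le_one hδ.le hδ1 (by norm_num)
  refine mul_le_mul ?_ (exp_le_exp.2 ?_) (exp_pos _).le (by positivity)
  · have : b ^ 3 * (x * δ ^ 3) ≤ b ^ 3 * S :=
      mul_le_mul_of_nonneg_left ((mul_le_mul_of_nonneg_left hδ3 hx).trans hN) (by positivity)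
    linarith
  · exact mul_le_mul_of_nonneg_left hN (by positivity)

theorem c4_ub {C4 b δ S c4 Q : ℝ} {x : ℝ} (hx : 0 ≤ x) (h4 : 0 ≤ C4) (hb : 0 ≤ b)
    (hQ : 0 ≤ Q) (hS : 0 ≤ S) (hN : x * δ ^ 2 ≤ S)
    (h2' : c4 ≤ (C4 + x * δ ^ 2 * Q) * exp (4 * b * (x * δ ^ 2))) :
    c4 ≤ (C4 + S * Q) * exp (4 * b * S) := by
  refine h2'.trans ?_
  refine mul_le_mul ?_ (exp_le_exp.2 ?_) (exp_pos _).le (by positivity)
  · have := mul_le_mul_of_nonneg_right hN hQ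
    linarith
  · exact mul_le_mul_of_nonneg_left hN (by positivity)

theorem R_le {c3 A3 b : ℝ} (h2 : 0 ≤ c3) (hb : 0 ≤ b) (hc3A : c3 ≤ A3) :
    3 * c3 ^ 2 + 12 * c3 * b ^ 2 + 4 * b ^ 4 ≤ 3 * A3 ^ 2 + 12 * A3 * b ^ 2 + 4 * b ^ 4 := by
  have h1 : c3 ^ 2 ≤ A3 ^ 2 := pow_le_pow_left₀ h2 hc3A 2
  have h2 : c3 * b ^ 2 ≤ A3 * b ^ 2 := mul_le_mul_of_nonneg_right hc3A (by positivity)
  linarith

/-- the invariant of the iteration -/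
def Inv (a b C3 C4 κ Q K δ : ℝ) (N : ℕ) (w : E → ℝ) : Prop :=
  ∃ a' c3 c4 ε', St a' b c3 c4 κ ε' w ∧
    a * (1 - b * δ ^ 2) ^ N - N * (K * δ ^ 3) ≤ a' ∧
    0 ≤ c3 ∧ c3 ≤ (C3 + 2 * b ^ 3 * (N * δ ^ 3)) * exp (3 * b * (N * δ ^ 2)) ∧
    c4 ≤ (C4 + N * δ ^ 2 * Q) * exp (4 * b * (N * δ ^ 2)) ∧
    0 ≤ ε' ∧ ε' ≤ N * (K * δ ^ 3) * exp (K * (N * δ ^ 2))

theorem Inv_step {a b C3 C4 κ S : ℝ} (ha : 0 < a) (hb : 0 ≤ b) (h3 : 0 ≤ C3)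
    (h4 : 0 ≤ C4) (hκ0 : 0 ≤ κ) (hκ1 : κ ≤ 1) (hS0 : 0 ≤ S) {A3 A4 Q a0 K : ℝ}
    (hA3 : A3 = (C3 + 2 * b ^ 3 * S) * exp (3 * b * S))
    (hQ : Q = 3 * A3 ^ 2 + 12 * A3 * b ^ 2 + 4 * b ^ 4)
    (hA4 : A4 = (C4 + S * Q) * exp (4 * b * S)) (ha0 : a0 = a * exp (-(2 * b * S)) / 2)
    (hK : 0 ≤ K)
    (hstep : ∀ (κ δ ε a C3 C4 : ℝ) (e : E) (w : E → ℝ), 0 ≤ κ → κ ≤ 1 → 0 < δ → δ ≤ 1 → 0 ≤ ε →
      ε ≤ 1 → a0 ≤ a → C3 ≤ A3 → C4 ≤ A4 → ‖e‖ = 1 → St a b C3 C4 κ ε w →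
      St (a * (1 - b * δ ^ 2) - K * δ ^ 3) b
        (C3 * (1 + 3 * b * δ ^ 2) + 2 * b ^ 3 * δ ^ 3)
        (C4 * (1 + 4 * b * δ ^ 2) + δ ^ 2 * (3 * C3 ^ 2 + 12 * C3 * b ^ 2 + 4 * b ^ 4))
        κ (ε * (1 + K * δ ^ 2) + K * δ ^ 3) (avg δ e w))
    {δ : ℝ} (hδ : 0 < δ) (hδ1 : δ ≤ 1) (hbδ : b * δ ^ 2 ≤ 1 / 2) (hδa : δ * (K * S + 1) ≤ a0)
    (hδe : δ * (K * S * exp (K * S) + 1) ≤ 1) {N : ℕ} (hN : (N : ℝ) * δ ^ 2 ≤ S) {w : E → ℝ}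
    (h : Inv a b C3 C4 κ Q K δ N w) {e : E} (he : ‖e‖ = 1) :
    Inv a b C3 C4 κ Q K δ (N + 1) (avg δ e w) := by
  obtain ⟨a', c3, c4, ε', hst, h1, h2, h2', h4', h5, h6⟩ := h
  have hN0 : (0 : ℝ) ≤ N := Nat.cast_nonneg _
  have hA3p : 0 ≤ A3 := by rw [hA3]; positivity
  have hQp : 0 ≤ Q := by rw [hQ]; positivity
  have hc3A : c3 ≤ A3 := hA3 ▸ c3_ub hN0 h3 hb hδ hδ1 hS0 hN h2'
  have hc4A : c4 ≤ A4 := hA4 ▸ c4_ub hN0 h4 hb hQp hS0 hN h4'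
  have haa : a0 ≤ a' := a_ge ha hb hK hS0 hδ hbδ hN ha0 hδa h1
  have hε1 : ε' ≤ 1 := by
    have q1 := e_le hK hS0 hδ hN h6
    linarith
  refine ⟨_, _, _, _, hstep κ δ ε' a' c3 c4 e w hκ0 hκ1 hδ hδ1 h5 hε1 haa hc3A hc4A he hst,
    ?_, ?_, ?_, ?_, ?_, ?_⟩
  · have := a_step hb hK hδ hbδ h1
    push_cast
    exact this
  · positivity
  · have := c3_step hN0 h3 hb hδ h2 h2'
    push_cast
    exact this
  · have := c4_step hN0 h4 hb hδ hQp (hQ ▸ R_le h2 hb hc3A) h4'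
    push_cast
    exact this
  · positivity
  · have := eps_step hN0 hK hδ h5 h6
    push_cast
    exact this

theorem iter_step (hS : StepStmt E) {a b C3 C4 κ S : ℝ} (ha : 0 < a) (hb : 0 ≤ b) (h3 : 0 ≤ C3)
    (h4 : 0 ≤ C4) (hκ0 : 0 ≤ κ) (hκ1 : κ ≤ 1) (hS0 : 0 ≤ S) :
    ∃ a0 > 0, ∃ K ≥ 0, ∃ d0 > 0, ∀ δ, 0 < δ → δ ≤ d0 → ∀ (l : List E), (∀ e ∈ l, ‖e‖ = 1) →
      (l.length : ℝ) * δ ^ 2 ≤ S → ∀ w : E → ℝ, St a b C3 C4 κ 0 w →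
      ∃ c3 c4, St a0 b c3 c4 κ (K * δ) (fold δ l w) := by
  obtain ⟨A3, hA3⟩ : ∃ A3, A3 = (C3 + 2 * b ^ 3 * S) * exp (3 * b * S) := ⟨_, rfl⟩
  obtain ⟨Q, hQ⟩ : ∃ Q, Q = 3 * A3 ^ 2 + 12 * A3 * b ^ 2 + 4 * b ^ 4 := ⟨_, rfl⟩
  obtain ⟨A4, hA4⟩ : ∃ A4, A4 = (C4 + S * Q) * exp (4 * b * S) := ⟨_, rfl⟩
  obtain ⟨a0, ha0⟩ : ∃ a0, a0 = a * exp (-(2 * b * S)) / 2 := ⟨_, rfl⟩
  have ha0p : 0 < a0 := by rw [ha0]; positivity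
  obtain ⟨K, hK, hstep⟩ := hS a0 b A3 A4 ha0p
  refine ⟨a0, ha0p, K * S * exp (K * S), by positivity,
    min (min 1 (1 / (2 * (b + 1)))) (min (a0 / (K * S + 1)) (1 / (K * S * exp (K * S) + 1))),
    by positivity, ?_⟩
  intro δ hδ hδd
  have hδ1 : δ ≤ 1 := hδd.trans ((min_le_left _ _).trans (min_le_left _ _))
  have hδb : δ * (2 * (b + 1)) ≤ 1 :=
    (le_div_iff₀ (by positivity)).1 (hδd.trans ((min_le_left _ _).trans (min_le_right _ _)))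
  have hδa : δ * (K * S + 1) ≤ a0 :=
    (le_div_iff₀ (by positivity)).1 (hδd.trans ((min_le_right _ _).trans (min_le_left _ _)))
  have hδe : δ * (K * S * exp (K * S) + 1) ≤ 1 :=
    (le_div_iff₀ (by positivity)).1 (hδd.trans ((min_le_right _ _).trans (min_le_right _ _)))
  have hδ2 : δ ^ 2 ≤ δ := by nlinarith
  have hbδ : b * δ ^ 2 ≤ 1 / 2 := by
    have := mul_le_mul_of_nonneg_left hδ2 hb
    nlinarith
  have inv : ∀ (l : List E), (∀ e ∈ l, ‖e‖ = 1) → (l.length : ℝ) * δ ^ 2 ≤ S →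
      ∀ w : E → ℝ, St a b C3 C4 κ 0 w → Inv a b C3 C4 κ Q K δ l.length (fold δ l w) := by
    intro l
    induction l using List.reverseRecOn with
    | nil =>
      intro _ _ w hw
      refine ⟨a, C3, C4, 0, hw, ?_, h3, ?_, ?_, le_refl _, ?_⟩ <;> simp
    | append_singleton l e ih =>
      intro hl hlen w hw
      rw [List.length_append] at hlen ⊢
      simp only [List.length_cons, List.length_nil, zero_add, Nat.cast_add, Nat.cast_one] at hlen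
      have hN : (l.length : ℝ) * δ ^ 2 ≤ S := by nlinarith [sq_nonneg δ]
      have hfold : fold δ (l ++ [e]) w = avg δ e (fold δ l w) := by
        simp [fold, List.foldl_append]
      rw [hfold]
      exact Inv_step ha hb h3 h4 hκ0 hκ1 hS0 hA3 hQ hA4 ha0 hK hstep hδ hδ1 hbδ hδa hδe hN
        (ih (fun e he => hl e (by simp [he])) hN w hw) (hl e (by simp))
  intro l hl hlen w hw
  obtain ⟨a', c3, c4, ε', hst, h1, h2, h2', h4', h5, h6⟩ := inv l hl hlen w hw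
  exact ⟨c3, c4, St_mono hst (a_ge ha hb hK hS0 hδ hbδ hlen ha0 hδa h1) le_rfl le_rfl
    (e_le hK hS0 hδ hlen h6)⟩

end Vale.Agent.P227.M.SC.F192
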